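import Vale.Agent.P216TP.One
import Vale.Agent.P216CP.Stm
import Vale.Agent.P216B.Len
import Vale.Agent.P216R.Iso
import Vale.Agent.P216R.Met

/-!
# P216TP/Top: Toponogov's theorem from the Hessian comparison in the support sense
-/

open scoped Manifold ContDiff Topology ENNReal
open Set Filter
open Vale.Agent.P219.RG Vale.Agent.P216R Vale.Agent.P216CP

noncomputable section

set_option maxSynthPendingDepth 3
set_option linter.unusedSectionVars false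

namespace Vale.Agent.P216TP

variable {E : Type} [NormedAddCommGroup E] [NormedSpace ℝ E] [FiniteDimensional ℝ E]
  {M : Type} [TopologicalSpace M] [ChartedSpace E M] [IsManifold 𝓘(ℝ, E) ∞ M]
  {g : Ten E M} {U : Set M} {σ γ : ℝ → M} {s : Set ℝ} {t k L D : ℝ} {a : M}

theorem geo_contMDiffAt (h : IsGeo g U σ s) (hs : IsOpen s) (ht : t ∈ s) :
    ContMDiffAt 𝓘(ℝ, ℝ) 𝓘(ℝ, E) 1 σ t := by
  rw [contMDiffAt_iff_target]
  refine ⟨h.contAt hs ht, ContDiffAt.contMDiffAt ?_⟩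
  have ha := mem_chart_source E (σ t)
  have h1 : ∀ᶠ u in 𝓝 t, HasDerivAt (cc (E := E) σ (σ t)) (deriv (cc σ (σ t)) u) u := by
    filter_upwards [eventually_source (h.contAt hs ht) ha, hs.mem_nhds ht] with u h1 h2
    exact h.hasDerivAt_cc h2 h1
  have h2 : ∀ᶠ u in 𝓝 t, ContinuousAt (deriv (cc (E := E) σ (σ t))) u := by
    filter_upwards [eventually_source (h.contAt hs ht) ha, hs.mem_nhds ht] with u h1 h2
    exact (h.eqn _ u h2 h1).2.1.continuousAt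
  obtain ⟨V, hV, hVo, htV⟩ := eventually_nhds_iff.1 (h1.and h2)
  have h3 : ContDiffOn ℝ 1 (cc (E := E) σ (σ t)) V := by
    rw [show (1 : WithTop ℕ∞) = 0 + 1 from rfl, contDiffOn_succ_iff_deriv_of_isOpen hVo]
    exact ⟨fun u hu => (hV u hu).1.differentiableAt.differentiableWithinAt, by simp,
      contDiffOn_zero.2 fun u hu => (hV u hu).2.continuousWithinAt⟩
  exact h3.contDiffAt (hVo.mem_nhds htV)

/-- a unit speed geodesic does not increase distances -/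
theorem ed_geo_le (h : IsGeo g U σ s) (hs : IsOpen s) (ho : s.OrdConnected)
    (hu : ∀ t ∈ s, spd g σ t = 1) {t₁ t₂ : ℝ} (h1 : t₁ ∈ s) (h2 : t₂ ∈ s) :
    ed g U (σ t₁) (σ t₂) ≤ ENNReal.ofReal |t₁ - t₂| := by
  wlog hle : t₁ ≤ t₂ generalizing t₁ t₂
  · rw [ed_comm, abs_sub_comm]; exact this h2 h1 (le_of_not_ge hle)
  have hsub := ho.out h1 h2
  have hc : Crv E U σ t₁ t₂ := ⟨hle, fun u hu => (geo_contMDiffAt h hs (hsub hu)).contMDiffWithinAt,
    fun u hu => h.mem u (hsub hu)⟩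
  refine (ed_le_len hc).trans ((len_le_const (C := 1) fun u hu' =>
    (hu u (hsub (Ioo_subset_Icc_self hu'))).le).trans_eq ?_)
  rw [abs_sub_comm, abs_of_nonneg (sub_nonneg.2 hle), ENNReal.ofReal_one, one_mul]

theorem MinGeo.ed_eq (h : MinGeo g U γ L) : ed g U (γ 0) (γ L) = ENNReal.ofReal L := by
  rw [h.min 0 ⟨le_rfl, h.nonneg⟩ L ⟨h.nonneg, le_rfl⟩, zero_sub, abs_neg, abs_of_nonneg h.nonneg]

theorem MinGeo.dd_eq (h : MinGeo g U γ L) {s t : ℝ} (hs : s ∈ Icc 0 L) (ht : t ∈ Icc 0 L) :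
    dd g U (γ s) (γ t) = |s - t| := by
  rw [dd, h.min s hs t ht, ENNReal.toReal_ofReal (abs_nonneg _)]

theorem MinGeo.isGeo (h : MinGeo g U γ L) : ∃ ε > 0, IsGeo g U γ (Ioo (-ε) (L + ε)) := by
  obtain ⟨ε, hε, h1, h2⟩ := h.geo
  exact ⟨ε, hε, h1, h2⟩

/-- the reversed geodesic -/
theorem MinGeo.rev (h : MinGeo g U γ L) : MinGeo g U (fun t => γ (L - t)) L ∧
    ∀ t ∈ Icc 0 L, vel E (fun t => γ (L - t)) t = -vel E γ (L - t) := by
  obtain ⟨ε, hε, hg⟩ := MinGeo.isGeo h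
  have hm : ∀ t ∈ Icc 0 L, L - t ∈ Icc 0 L := fun t ht => ⟨by linarith [ht.2], by linarith [ht.1]⟩
  have hd : ∀ t ∈ Icc 0 L, DAt E γ (L - t) := fun t ht =>
    (geo_contMDiffAt hg isOpen_Ioo ⟨by linarith [ht.2], by linarith [ht.1]⟩).mdifferentiableAt
      one_ne_zero
  have hφ : ∀ t : ℝ, HasDerivAt (fun t : ℝ => L - t) (-1) t := fun t =>
    (hasDerivAt_id' t).const_sub L
  have h2 := (hg.comp_affine (-1) L).mono (s' := Ioo (-ε) (L + ε)) fun t ht =>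
    ⟨by linarith [ht.2], by linarith [ht.1]⟩
  have e : (fun t => γ (-1 * t + L)) = fun t => γ (L - t) := funext fun t => by congr 1; ring
  rw [e] at h2
  refine ⟨⟨h.nonneg, ⟨ε, hε, h2.toGeo, h2.mem⟩, fun t ht => ?_, fun s hs t ht => ?_⟩,
    fun t ht => ?_⟩
  · have := spd_reparam (g := g) (hφ t) (hd t ht)
    rw [h.unit _ (hm t ht)] at this
    exact this.trans (by simp)
  · rw [h.min _ (hm s hs) _ (hm t ht), abs_sub_comm]; congr 2; ring
  · exact (vel_reparam (hφ t) (hd t ht)).trans (neg_one_smul ℝ _)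

theorem g_vel_eq (h : spd g σ t = 1) : g (σ t) (vel E σ t) (vel E σ t) = 1 :=
  Real.sqrt_eq_one.1 h

/-- derivatives of a smooth function along a geodesic -/
theorem usup_comp (hg : Met g U) (h : IsGeo g U σ s) (hs : IsOpen s) (ht : t ∈ s) {f : M → ℝ}
    (hf : ContMDiffAt 𝓘(ℝ, E) 𝓘(ℝ, ℝ) ∞ f (σ t)) :
    USup (fun u => f (σ u)) t (g (σ t) (grad g f (σ t)) (vel E σ t))
      (hess g f (σ t) (vel E σ t) (vel E σ t)) := by
  set y := σ t with hy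
  have ha := mem_chart_source E y
  have hψ : ContDiffAt ℝ ∞ (rd E f y) (pt E y) := by
    have h1 : ContMDiffAt 𝓘(ℝ, E) 𝓘(ℝ, ℝ) ∞ f ((chartAt E y).symm (pt E y)) := by
      rwa [symm_pt]
    exact (h1.comp _ (sm_symm (pt_mem y))).contDiffAt
  have hc := h.hasDerivAt_cc ht ha
  have hsrc := eventually_source (h.contAt hs ht) ha
  have hv : vel E σ t = deriv (cc (E := E) σ y) t := h.vel_eq hs ht
  have h1 : ContDiffAt ℝ 1 (rd E f y) (cc σ y t) := hψ.of_le (by simp)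
  refine ⟨fun u => rd E f y (cc σ y u), fun u => fderiv ℝ (rd E f y) (cc σ y u)
    (deriv (cc σ y) u), rd_pt f y, ?_, ?_, ?_, ?_⟩
  · filter_upwards [hsrc] with u hu
    exact le_of_eq (congrArg f ((chartAt E y).left_inv hu).symm)
  · filter_upwards [hsrc, hs.mem_nhds ht, hc.continuousAt (h1.eventually (by simp))]
      with u hu hus hd
    have hd' : ContDiffAt ℝ 1 (rd E f y) (cc σ y u) := hd
    exact (hd'.differentiableAt one_ne_zero).hasFDerivAt.comp_hasDerivAt u (h.hasDerivAt_cc hus hu)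
  · rw [hv, grad, P210.R2.H53.gradG, co_pt, app_inverse (hg.pos y (h.mem t ht))]
    rfl
  · have h2 : DifferentiableAt ℝ (fderiv ℝ (rd E f y)) (cc σ y t) :=
      (hψ.fderiv_right (m := 1) (by decide)).differentiableAt one_ne_zero
    obtain ⟨-, e2, e3⟩ := h.eqn y t ht ha
    refine ((h2.hasFDerivAt.comp_hasDerivAt t hc).clm_apply e2.hasDerivAt).congr_deriv ?_
    rw [e3, hess, hessG_apply, hv]
    simp only [Function.comp, map_neg]
    rfl

omit [FiniteDimensional ℝ E] [IsManifold 𝓘(ℝ, E) ∞ M] in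
theorem dd_nonneg (x y : M) : 0 ≤ dd g U x y := ENNReal.toReal_nonneg

/-- the support function of the distance along a unit speed geodesic -/
theorem usup_dd (hS : SUPH E) (hg : Met g U) (hH : Hs U) (h : IsGeo g U σ s) (hs : IsOpen s)
    (ht : t ∈ s) (hu : spd g σ t = 1) (hγ : MinGeo g U γ L) (hL : 0 < L) (he : γ L = σ t)
    (hk : 0 ≤ k) (hsec : ∀ u ∈ Icc 0 L, SecGe g (γ u) (-k ^ 2)) :
    ∃ b ≤ ct k L * (1 - g (σ t) (vel E γ L) (vel E σ t) ^ 2),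
      USup (fun u => dd g U (γ 0) (σ u)) t (g (σ t) (vel E γ L) (vel E σ t)) b := by
  obtain ⟨f, hf, h1, h2⟩ := hS M g U γ L k hg hH hγ hL hk hsec
  rw [he] at hf h1 h2
  obtain ⟨φ, φ', e, hle, hd, e1, hd2⟩ := usup_comp hg h hs ht hf.smooth
  refine ⟨_, ?_, φ, φ', ?_, ?_, hd, by rw [e1, h1], hd2⟩
  · have := h2 (vel E σ t)
    rwa [g_vel_eq hu, hg.symm _ (h.mem t ht) (vel E σ t)] at this
  · simp only [e, dd, hf.eq, ENNReal.toReal_ofReal hf.nonneg]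
  · have hp : 0 < f (σ t) := by
      have h3 := hf.eq
      rw [← he, MinGeo.ed_eq hγ, he] at h3
      exact ENNReal.ofReal_pos.1 (h3 ▸ ENNReal.ofReal_pos.2 hL)
    filter_upwards [hle, h.contAt hs ht hf.le, (hf.smooth.continuousAt.comp
      (h.contAt hs ht)).eventually (lt_mem_nhds hp)] with u h3 h4 h5
    exact (ENNReal.toReal_le_of_le_ofReal (le_of_lt h5) h4).trans h3

/-- every point of `σ` is joined to `a` by a minimising geodesic of length at most `D` along which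
`sec ≥ -k ^ 2` -/
def Reg (g : Ten E M) (U : Set M) (a : M) (k D : ℝ) (σ : ℝ → M) (s : Set ℝ) : Prop :=
  ∀ t ∈ s, ∃ γ L, MinGeo g U γ L ∧ γ 0 = a ∧ γ L = σ t ∧ L ≤ D ∧
    ∀ u ∈ Icc 0 L, SecGe g (γ u) (-k ^ 2)

theorem Reg.ne_top (h : Reg g U a k D σ s) (ht : t ∈ s) : ed g U a (σ t) ≠ ⊤ := by
  obtain ⟨γ, L, hγ, rfl, e, -⟩ := h t ht
  rw [← e, MinGeo.ed_eq hγ]; exact ENNReal.ofReal_ne_top

theorem dd_geo_le (h : IsGeo g U σ s) (hs : IsOpen s) (ho : s.OrdConnected)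
    (hu : ∀ t ∈ s, spd g σ t = 1) {t₁ t₂ : ℝ} (h1 : t₁ ∈ s) (h2 : t₂ ∈ s)
    (hf : ed g U a (σ t₁) ≠ ⊤) : dd g U a (σ t₂) ≤ dd g U a (σ t₁) + |t₁ - t₂| := by
  refine ENNReal.toReal_le_of_le_ofReal (add_nonneg (dd_nonneg _ _) (abs_nonneg _)) ?_
  rw [ENNReal.ofReal_add (dd_nonneg _ _) (abs_nonneg _), dd, ENNReal.ofReal_toReal hf]
  exact (ed_triangle _ _ _).trans (add_le_add le_rfl (ed_geo_le h hs ho hu h1 h2))

theorem continuousOn_dd (h : IsGeo g U σ s) (hs : IsOpen s) (ho : s.OrdConnected)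
    (hu : ∀ t ∈ s, spd g σ t = 1) (hf : ∀ t ∈ s, ed g U a (σ t) ≠ ⊤) :
    ContinuousOn (fun t => dd g U a (σ t)) s := by
  refine (LipschitzOnWith.of_le_add (f := fun t => dd g U a (σ t)) fun x hx y hy => ?_).continuousOn
  rw [Real.dist_eq, abs_sub_comm]
  exact dd_geo_le h hs ho hu hy hx (hf y hy)

/-- support functions of `m ∘ dist` -/
theorem usup_m (hS : SUPH E) (hg : Met g U) (hH : Hs U) (h : IsGeo g U σ s) (hs : IsOpen s)
    (ho : s.OrdConnected) (hu : ∀ t ∈ s, spd g σ t = 1) (ht : t ∈ s) (hγ : MinGeo g U γ L)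
    (he : γ L = σ t) (hk : 0 ≤ k) (hsec : ∀ u ∈ Icc 0 L, SecGe g (γ u) (-k ^ 2))
    {m m1 m2 : ℝ → ℝ} (hm : MonotoneOn m (Ici 0)) (hev : ∀ x, m |x| = m x)
    (d1 : ∀ x, HasDerivAt m (m1 x) x) (d2 : ∀ x, HasDerivAt m1 (m2 x) x) (h0 : m1 0 = 0)
    (h1 : 0 ≤ m1 L) {B : ℝ} (hB : m2 L ≤ B) (hB' : m1 L * ct k L ≤ B) :
    ∃ b ≤ B, USup (fun u => m (dd g U (γ 0) (σ u))) t
      (m1 L * g (σ t) (vel E γ L) (vel E σ t)) b := by
  have hd : dd g U (γ 0) (σ t) = L := by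
    rw [← he, dd, MinGeo.ed_eq hγ, ENNReal.toReal_ofReal hγ.nonneg]
  rcases hγ.nonneg.eq_or_lt with rfl | hL
  · refine ⟨_, hB, ?_⟩
    rw [show m1 0 * g (σ t) (vel E γ 0) (vel E σ t) = m1 0 by rw [h0, zero_mul]]
    refine usup_zero (F := fun u => dd g U (γ 0) (σ u)) (fun _ => dd_nonneg _ _) ?_ hm hev d1 d2
    filter_upwards [hs.mem_nhds ht] with u hus
    have := dd_geo_le (a := γ 0) h hs ho hu ht hus
      (by rw [← he, MinGeo.ed_eq hγ]; exact ENNReal.ofReal_ne_top)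
    rwa [hd, zero_add, abs_sub_comm] at this
  obtain ⟨b, hb, hU⟩ := usup_dd hS hg hH h hs ht (hu t ht) hγ hL he hk hsec
  have h2 := hU.comp (fun _ => dd_nonneg _ _) hm d1 d2
  simp only [hd] at h2
  refine ⟨_, ?_, h2⟩
  set α := g (σ t) (vel E γ L) (vel E σ t) with hα
  have h3 : α ^ 2 ≤ 1 := by
    have hm := h.mem t ht
    have e1 := g_vel_eq (hγ.unit L ⟨hL.le, le_rfl⟩)
    have e2 := g_vel_eq (hu t ht)
    rw [he] at e1
    have := hg.nonneg hm (vel E σ t - α • vel E γ L)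
    simp only [map_sub, map_smul, sub_apply, smul_apply,
      smul_eq_mul, e1, e2, hg.symm _ hm (vel E σ t) (vel E γ L), ← hα] at this
    nlinarith
  have h4 := mul_le_mul_of_nonneg_left hb h1
  nlinarith [mul_le_mul_of_nonneg_right hB (sq_nonneg α),
    mul_le_mul_of_nonneg_right hB' (sub_nonneg.2 h3)]

theorem mul_ct_le (hk : 0 ≤ k) (hL : 0 ≤ L) : L * ct k L ≤ 1 + (k * L) ^ 2 := by
  rcases hL.eq_or_lt with rfl | hL
  · simp
  rcases hk.eq_or_lt with rfl | hk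
  · simp [ct, sn, hL.ne']
  have h1 := mul_cosh_le (mul_pos hk hL).le
  have h2 : 0 < Real.sinh (k * L) := Real.sinh_pos_iff.2 (mul_pos hk hL)
  rw [ct, sn, if_neg hk.ne', div_div_eq_mul_div, ← mul_div_assoc, div_le_iff₀ h2]
  linarith

theorem usup_sq (hS : SUPH E) (hg : Met g U) (hH : Hs U) (h : IsGeo g U σ s) (hs : IsOpen s)
    (ho : s.OrdConnected) (hu : ∀ t ∈ s, spd g σ t = 1) (ht : t ∈ s) (hγ : MinGeo g U γ L)
    (he : γ L = σ t) (hk : 0 ≤ k) (hsec : ∀ u ∈ Icc 0 L, SecGe g (γ u) (-k ^ 2)) (hD : L ≤ D) :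
    ∃ b ≤ 2 * (1 + (k * D) ^ 2), USup (fun u => dd g U (γ 0) (σ u) ^ 2) t
      (2 * L * g (σ t) (vel E γ L) (vel E σ t)) b := by
  have h1 := mul_ct_le hk hγ.nonneg
  have h2 : (k * L) ^ 2 ≤ (k * D) ^ 2 :=
    pow_le_pow_left₀ (mul_nonneg hk hγ.nonneg) (mul_le_mul_of_nonneg_left hD hk) 2
  exact usup_m hS hg hH h hs ho hu ht hγ he hk hsec (m := fun x => x ^ 2) (m1 := fun x => 2 * x)
    (m2 := fun _ => 2) (fun x hx y _ hxy => pow_le_pow_left₀ hx hxy 2) (fun x => sq_abs x)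
    (fun x => by simpa using hasDerivAt_pow 2 x)
    (fun x => by simpa using (hasDerivAt_id' x).const_mul 2) (by simp)
    (by linarith [hγ.nonneg]) (by nlinarith [sq_nonneg (k * D)]) (by linarith)

theorem usup_cosh (hS : SUPH E) (hg : Met g U) (hH : Hs U) (h : IsGeo g U σ s) (hs : IsOpen s)
    (ho : s.OrdConnected) (hu : ∀ t ∈ s, spd g σ t = 1) (ht : t ∈ s) (hγ : MinGeo g U γ L)
    (he : γ L = σ t) (hk : 0 < k) (hsec : ∀ u ∈ Icc 0 L, SecGe g (γ u) (-k ^ 2)) :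
    ∃ b ≤ k ^ 2 * Real.cosh (k * L), USup (fun u => Real.cosh (k * dd g U (γ 0) (σ u))) t
      (k * Real.sinh (k * L) * g (σ t) (vel E γ L) (vel E σ t)) b := by
  have h0 : 0 ≤ k * L := mul_nonneg hk.le hγ.nonneg
  refine usup_m hS hg hH h hs ho hu ht hγ he hk.le hsec (m := fun x => Real.cosh (k * x))
    (m1 := fun x => k * Real.sinh (k * x)) (m2 := fun x => k ^ 2 * Real.cosh (k * x))
    (fun x hx y hy hxy => Real.cosh_strictMonoOn.monotoneOn (mul_nonneg hk.le hx)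
      (mul_nonneg hk.le hy) (mul_le_mul_of_nonneg_left hxy hk.le)) (fun x => ?_)
    (fun x => (((hasDerivAt_id' x).const_mul k).cosh).congr_deriv (by ring))
    (fun x => ((((hasDerivAt_id' x).const_mul k).sinh).const_mul k).congr_deriv (by ring))
    (by simp) (mul_nonneg hk.le (Real.sinh_nonneg_iff.2 h0)) le_rfl ?_
  · rw [← Real.cosh_abs (k * x), abs_mul, abs_of_pos hk]
  · rw [ct, sn, if_neg hk.ne']
    rcases eq_or_ne (Real.sinh (k * L)) 0 with e | e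
    · rw [e]; simp only [mul_zero, zero_mul]; positivity
    · exact le_of_eq (by field_simp)

/-- **Toponogov, region form**: almost concavity of the squared distance, and the hinge. -/
theorem topR (hS : SUPH E) (hg : Met g U) (hH : Hs U) (h : IsGeo g U σ s) (hs : IsOpen s)
    (ho : s.OrdConnected) (hu : ∀ t ∈ s, spd g σ t = 1) (hk : 0 ≤ k) (hR : Reg g U a k D σ s) :
    ConcaveOn ℝ s (fun t => dd g U a (σ t) ^ 2 - (1 + (k * D) ^ 2) * t ^ 2) ∧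
    ∀ γ A, MinGeo g U γ A → γ A = a → (0 : ℝ) ∈ s → γ 0 = σ 0 →
      (∀ u ∈ Icc 0 A, SecGe g (γ u) (-k ^ 2)) → ∀ t ∈ s, 0 ≤ t → dd g U a (σ t) ^ 2 ≤
        A ^ 2 + (1 + (k * D) ^ 2) * t ^ 2 - 2 * A * t * g (σ 0) (vel E γ 0) (vel E σ 0) := by
  have hc : ConcaveOn ℝ s (fun t => dd g U a (σ t) ^ 2 - (1 + (k * D) ^ 2) * t ^ 2) := by
    refine concaveOn_of_usup ho ((continuousOn_dd h hs ho hu fun t ht => hR.ne_top ht).pow 2)
      fun t ht => ?_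
    obtain ⟨γ, L, hγ, rfl, e, hD, hsec⟩ := hR t ht
    obtain ⟨b, hb, hU⟩ := usup_sq hS hg hH h hs ho hu ht hγ e hk hsec hD
    exact ⟨_, b, hb, hU⟩
  refine ⟨hc, fun γ A hγ hA h0 e0 hsec t ht ht0 => ?_⟩
  obtain ⟨hr, hv⟩ := MinGeo.rev hγ
  have hd : dd g U a (σ 0) = A := by
    rw [← hA, ← e0, MinGeo.dd_eq hγ ⟨hγ.nonneg, le_rfl⟩ ⟨le_rfl, hγ.nonneg⟩, sub_zero,
      abs_of_nonneg hγ.nonneg]
  rcases ht0.eq_or_lt with rfl | ht0
  · rw [hd]; simp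
  obtain ⟨b, -, hU⟩ := usup_sq hS hg hH h hs ho hu h0 hr (by simpa using e0) hk
    (fun u hu => hsec _ ⟨by linarith [hu.2], by linarith [hu.1]⟩) le_rfl
  rw [hv A ⟨hγ.nonneg, le_rfl⟩] at hU
  simp only [sub_zero, sub_self, hA, map_neg, neg_apply] at hU
  set c := 1 + (k * D) ^ 2
  set Z := (dd g U a (σ t) ^ 2 - c * t ^ 2 - A ^ 2) / t with hZ
  have h1 := hU.deriv_le (u := fun τ => A ^ 2 + Z * τ + c * τ ^ 2) (u' := Z)
    (((((hasDerivAt_id' (0 : ℝ)).const_mul Z).const_add (A ^ 2)).add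
      (((hasDerivAt_id' (0 : ℝ)).pow 2).const_mul c)).congr_deriv (by simp)) (by simp [hd]) (by
      filter_upwards [Ioo_mem_nhdsGT ht0] with τ hτ
      have := hc.2 h0 ht (sub_nonneg.2 ((div_le_one ht0).2 hτ.2.le)) (div_pos hτ.1 ht0).le
        (by ring)
      simp only [smul_eq_mul, mul_zero, zero_add, div_mul_cancel₀ _ ht0.ne', hd] at this
      have e : Z * τ = τ / t * (dd g U a (σ t) ^ 2 - c * t ^ 2 - A ^ 2) := by rw [hZ]; ring
      rw [e]; linarith)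
  rw [hZ, div_le_iff₀ ht0] at h1
  linarith

/-- **Toponogov, region form**, hyperbolic comparison. -/
theorem topC (hS : SUPH E) (hg : Met g U) (hH : Hs U) (h : IsGeo g U σ s) (hs : IsOpen s)
    (ho : s.OrdConnected) (hu : ∀ t ∈ s, spd g σ t = 1) (hk : 0 < k) (hR : Reg g U a k D σ s) :
    (∀ t₁ ∈ s, ∀ t₂ ∈ s, ∀ t ∈ Icc t₁ t₂,
      Real.sinh (k * (t₂ - t)) * Real.cosh (k * dd g U a (σ t₁))
        + Real.sinh (k * (t - t₁)) * Real.cosh (k * dd g U a (σ t₂))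
        ≤ Real.sinh (k * (t₂ - t₁)) * Real.cosh (k * dd g U a (σ t))) ∧
    ∀ γ A, MinGeo g U γ A → γ A = a → (0 : ℝ) ∈ s → γ 0 = σ 0 →
      (∀ u ∈ Icc 0 A, SecGe g (γ u) (-k ^ 2)) → ∀ t ∈ s, 0 ≤ t →
      Real.cosh (k * dd g U a (σ t)) ≤ Real.cosh (k * A) * Real.cosh (k * t)
        - Real.sinh (k * A) * Real.sinh (k * t) * g (σ 0) (vel E γ 0) (vel E σ 0) := by
  have hc : ∀ t₁ ∈ s, ∀ t₂ ∈ s, ∀ t ∈ Icc t₁ t₂,
      Real.sinh (k * (t₂ - t)) * Real.cosh (k * dd g U a (σ t₁))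
        + Real.sinh (k * (t - t₁)) * Real.cosh (k * dd g U a (σ t₂))
        ≤ Real.sinh (k * (t₂ - t₁)) * Real.cosh (k * dd g U a (σ t)) := by
    intro t₁ h1 t₂ h2 t ht
    have hsub := ho.out h1 h2
    refine sinh_le_of_usup (F := fun t => Real.cosh (k * dd g U a (σ t))) hk
      (Real.continuous_cosh.comp_continuousOn (continuousOn_const.mul
        ((continuousOn_dd h hs ho hu fun t ht => hR.ne_top ht).mono hsub))) (fun t ht => ?_) ht
    have hts := hsub (Ioo_subset_Icc_self ht)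
    obtain ⟨γ, L, hγ, rfl, e, -, hsec⟩ := hR t hts
    obtain ⟨b, hb, hU⟩ := usup_cosh hS hg hH h hs ho hu hts hγ e hk hsec
    refine ⟨_, b, ?_, hU⟩
    rwa [← e, dd, MinGeo.ed_eq hγ, ENNReal.toReal_ofReal hγ.nonneg]
  refine ⟨hc, fun γ A hγ hA h0 e0 hsec t ht ht0 => ?_⟩
  obtain ⟨hr, hv⟩ := MinGeo.rev hγ
  have hd : dd g U a (σ 0) = A := by
    rw [← hA, ← e0, MinGeo.dd_eq hγ ⟨hγ.nonneg, le_rfl⟩ ⟨le_rfl, hγ.nonneg⟩, sub_zero,
      abs_of_nonneg hγ.nonneg]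
  rcases ht0.eq_or_lt with rfl | ht0
  · rw [hd]; simp
  obtain ⟨b, -, hU⟩ := usup_cosh hS hg hH h hs ho hu h0 hr (by simpa using e0) hk
    (fun u hu => hsec _ ⟨by linarith [hu.2], by linarith [hu.1]⟩)
  rw [hv A ⟨hγ.nonneg, le_rfl⟩] at hU
  simp only [sub_zero, sub_self, hA, map_neg, neg_apply] at hU
  have hS0 : 0 < Real.sinh (k * t) := Real.sinh_pos_iff.2 (mul_pos hk ht0)
  set S := Real.sinh (k * t) with hSd
  set F := Real.cosh (k * dd g U a (σ t))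
  have i1 := hasDerivAt_id' (0 : ℝ)
  have h1 := hU.deriv_le (u := fun τ => (Real.sinh (k * (t - τ)) * Real.cosh (k * A) +
      Real.sinh (k * τ) * F) / S) (u' := k * (F - Real.cosh (k * t) * Real.cosh (k * A)) / S)
    (((((((i1.const_sub t).const_mul k).sinh).mul_const _).add
      (((i1.const_mul k).sinh).mul_const F)).div_const S).congr_deriv (by simp; ring))
    (by simp only [sub_zero, mul_zero, Real.sinh_zero, zero_mul, add_zero, hd, ← hSd]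
        field_simp) (by
      filter_upwards [Ioo_mem_nhdsGT ht0] with τ hτ
      have := hc 0 h0 t ht τ ⟨hτ.1.le, hτ.2.le⟩
      simp only [sub_zero, hd] at this
      rw [div_le_iff₀ hS0]; linarith)
  rw [div_le_iff₀ hS0] at h1
  have h2 : k * F ≤ k * (Real.cosh (k * A) * Real.cosh (k * t) -
      Real.sinh (k * A) * S * g (σ 0) (vel E γ 0) (vel E σ 0)) := by linarith
  exact le_of_mul_le_mul_left h2 hk

theorem MinGeo.mem_bl (hγ : MinGeo g U γ L) {R : ℝ} (hR : L < R) {u v : ℝ} (hu : u ∈ Icc 0 L)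
    (hv : v ∈ Icc 0 L) : γ v ∈ bl g U (γ u) R := by
  refine (hγ.min u hu v hv).trans_lt ((ENNReal.ofReal_lt_ofReal_iff (hγ.nonneg.trans_lt hR)).2 ?_)
  exact abs_lt.2 ⟨by linarith [hu.1, hv.2], by linarith [hu.2, hv.1]⟩

theorem dd_lt_of_mem {x y : M} {R : ℝ} (h : y ∈ bl g U x R) : dd g U x y < R :=
  ENNReal.toReal_lt_of_lt_ofReal h

theorem reg_of_ball (hR : HR E) (hg : Met g U) (hH : Hs U) {R : ℝ} (hc : Cpt g U a R)
    (hsec : ∀ y ∈ bl g U a R, SecGe g y (-k ^ 2)) (hm : ∀ t ∈ s, σ t ∈ bl g U a R) :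
    Reg g U a k R σ s := fun t ht => by
  obtain ⟨γ, hγ, e0, e1⟩ := hR M g U a (σ t) R hg hH hc (hm t ht)
  have h1 := dd_lt_of_mem (hm t ht)
  exact ⟨γ, _, hγ, e0, e1, h1.le, fun u hu =>
    hsec _ (e0 ▸ MinGeo.mem_bl hγ h1 ⟨le_rfl, hγ.nonneg⟩ hu)⟩

theorem hinge_sec {R κ : ℝ} (hsec : ∀ y ∈ bl g U a R, SecGe g y κ) {A : ℝ} (hγ : MinGeo g U γ A)
    (hA : γ A = a) (hm : γ 0 ∈ bl g U a R) : ∀ u ∈ Icc 0 A, SecGe g (γ u) κ := fun u hu => by
  have h1 := dd_lt_of_mem hm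
  rw [← hA, MinGeo.dd_eq hγ ⟨hγ.nonneg, le_rfl⟩ ⟨le_rfl, hγ.nonneg⟩, sub_zero,
    abs_of_nonneg hγ.nonneg] at h1
  exact hsec _ (hA ▸ MinGeo.mem_bl hγ h1 ⟨hγ.nonneg, le_rfl⟩ hu)

theorem top0 (hS : SUPH E) (hR : HR E) : TOP0 E := by
  intro M _ _ _ g U a R σ s hg hH hc hsec hs ho h hu hm
  have hsec' : ∀ y ∈ bl g U a R, SecGe g y (-(0 : ℝ) ^ 2) := by simpa using hsec
  obtain ⟨h1, h2⟩ := topR hS hg hH h hs ho hu le_rfl (reg_of_ball hR hg hH hc hsec' hm)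
  refine ⟨by simpa using h1, fun γ A hγ hA h0 e0 t ht ht0 => ?_⟩
  simpa using h2 γ A hγ hA h0 e0 (hinge_sec hsec' hγ hA (e0 ▸ hm 0 h0)) t ht ht0

theorem top1 (hS : SUPH E) (hR : HR E) : TOP1 E := by
  intro M _ _ _ g U a R k σ s hg hH hc hk hsec hs ho h hu hm
  obtain ⟨h1, h2⟩ := topC hS hg hH h hs ho hu hk (reg_of_ball hR hg hH hc hsec hm)
  exact ⟨h1, fun γ A hγ hA h0 e0 t ht ht0 =>
    h2 γ A hγ hA h0 e0 (hinge_sec hsec hγ hA (e0 ▸ hm 0 h0)) t ht ht0⟩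

end Vale.Agent.P216TP
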