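import Mathlib.Analysis.SpecialFunctions.Trigonometric.DerivHyp
import Mathlib.Analysis.Calculus.Deriv.MeanValue
import Mathlib.Analysis.Convex.Function
import Mathlib.Tactic

/-!
# P216TP/One: comparison for functions of one variable with upper support functions
-/

open Set Filter Topology

namespace Vale.Agent.P216TP

/-- `F` has at `t` an upper support function with first derivative `a` and second derivative `b` -/
def USup (F : ℝ → ℝ) (t a b : ℝ) : Prop :=
  ∃ φ φ' : ℝ → ℝ, φ t = F t ∧ (∀ᶠ s in 𝓝 t, F s ≤ φ s) ∧ (∀ᶠ s in 𝓝 t, HasDerivAt φ (φ' s) s) ∧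
    φ' t = a ∧ HasDerivAt φ' b t

variable {F : ℝ → ℝ} {t a b : ℝ}

theorem USup.comp (h : USup F t a b) (h0 : ∀ s, 0 ≤ F s) {m m1 m2 : ℝ → ℝ}
    (hm : MonotoneOn m (Ici 0)) (d1 : ∀ x, HasDerivAt m (m1 x) x)
    (d2 : ∀ x, HasDerivAt m1 (m2 x) x) :
    USup (fun s => m (F s)) t (m1 (F t) * a) (m2 (F t) * a ^ 2 + m1 (F t) * b) := by
  obtain ⟨φ, φ', e, hle, hd, rfl, hd2⟩ := h
  refine ⟨fun s => m (φ s), fun s => m1 (φ s) * φ' s, by simp only [e], ?_, ?_,
    by simp only [e], ?_⟩
  · filter_upwards [hle] with s hs using hm (h0 s) ((h0 s).trans hs) hs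
  · filter_upwards [hd] with s hs using (d1 _).comp s hs
  · have := ((d2 _).comp t hd.self_of_nhds).mul hd2
    rw [← e]
    refine this.congr_deriv ?_
    simp only [Function.comp]; ring

theorem usup_zero (h0 : ∀ s, 0 ≤ F s) (hle : ∀ᶠ s in 𝓝 t, F s ≤ |s - t|) {m m1 m2 : ℝ → ℝ}
    (hm : MonotoneOn m (Ici 0)) (he : ∀ x, m |x| = m x) (d1 : ∀ x, HasDerivAt m (m1 x) x)
    (d2 : ∀ x, HasDerivAt m1 (m2 x) x) : USup (fun s => m (F s)) t (m1 0) (m2 0) := by
  have e : F t = 0 := le_antisymm (by simpa using hle.self_of_nhds) (h0 t)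
  refine ⟨fun s => m (s - t), fun s => m1 (s - t), by simp [e], ?_, ?_, by simp, ?_⟩
  · filter_upwards [hle] with s hs
    rw [← he (s - t)]; exact hm (h0 s) (mem_Ici.2 (abs_nonneg _)) hs
  · exact Eventually.of_forall fun s => (d1 _).comp_sub_const s t
  · simpa using (d2 (t - t)).comp_sub_const t t

theorem USup.add (h : USup F t a b) {y y1 y2 : ℝ → ℝ} (d1 : ∀ x, HasDerivAt y (y1 x) x)
    (d2 : ∀ x, HasDerivAt y1 (y2 x) x) : USup (fun s => F s + y s) t (a + y1 t) (b + y2 t) := by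
  obtain ⟨φ, φ', e, hle, hd, rfl, hd2⟩ := h
  refine ⟨fun s => φ s + y s, fun s => φ' s + y1 s, by simp only [e], ?_, ?_, rfl,
    hd2.add (d2 t)⟩
  · filter_upwards [hle] with s hs using add_le_add hs le_rfl
  · filter_upwards [hd] with s hs using hs.add (d1 s)

/-- no local minimum where the second derivative of the support function is negative -/
theorem USup.not_min (h : USup F t a b) (hb : b < 0) (hm : IsLocalMin F t) : False := by
  obtain ⟨φ, φ', e, hle, hd, rfl, hd2⟩ := h
  have h1 : IsLocalMin φ t := by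
    filter_upwards [hle, hm] with s h1 h2
    rw [e]; exact h2.trans h1
  have h2 : φ' t = 0 := h1.hasDerivAt_eq_zero hd.self_of_nhds
  have h3 : ∀ᶠ s in 𝓝[>] t, φ' s < 0 := by
    have h4 := (hasDerivAt_iff_tendsto_slope.1 hd2).eventually (gt_mem_nhds hb)
    filter_upwards [nhdsWithin_mono t (fun s (hs : t < s) => hs.ne') h4, self_mem_nhdsWithin]
      with s hs (hts : t < s)
    rw [slope_def_field, h2, sub_zero] at hs
    exact (div_neg_iff.1 hs).elim (fun h => absurd h.2 (by linarith)) fun h => h.1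
  obtain ⟨u, hu, hsub⟩ := (nhdsGT_basis t).eventually_iff.1 h3
  obtain ⟨δ, hδ, hball⟩ := Metric.eventually_nhds_iff.1 (hd.and h1)
  set v := min ((t + u) / 2) (t + δ / 2) with hv
  have htv : t < v := lt_min (by linarith) (by linarith)
  have hnear : ∀ s ∈ Icc t v, dist s t < δ := fun s hs => by
    rw [Real.dist_eq, abs_of_nonneg (by linarith [hs.1])]
    linarith [hs.2, min_le_right ((t + u) / 2) (t + δ / 2)]
  obtain ⟨c, hc, hc2⟩ := exists_hasDerivAt_eq_slope φ φ' htv
    (fun s hs => (hball (hnear s hs)).1.continuousAt.continuousWithinAt)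
    (fun s hs => (hball (hnear s (Ioo_subset_Icc_self hs))).1)
  have h5 : φ' c < 0 := hsub ⟨hc.1, by linarith [hc.2, min_le_left ((t + u) / 2) (t + δ / 2)]⟩
  have h6 : φ t ≤ φ v := (hball (hnear v ⟨htv.le, le_rfl⟩)).2
  have h7 : 0 ≤ (φ v - φ t) / (v - t) := div_nonneg (by linarith) (by linarith)
  linarith

theorem nonneg_of_usup {t₁ t₂ : ℝ} (hc : ContinuousOn F (Icc t₁ t₂)) (h1 : 0 ≤ F t₁)
    (h2 : 0 ≤ F t₂) (h : ∀ s ∈ Ioo t₁ t₂, F s < 0 → ∃ a b, b < 0 ∧ USup F s a b)
    (ht : t ∈ Icc t₁ t₂) : 0 ≤ F t := by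
  obtain ⟨s, hs, hmin⟩ := isCompact_Icc.exists_isMinOn ⟨t, ht⟩ hc
  by_contra hneg
  have h3 : F s < 0 := (hmin ht).trans_lt (not_le.1 hneg)
  have h4 : s ∈ Ioo t₁ t₂ :=
    ⟨hs.1.lt_of_ne fun e => by rw [← e] at h3; linarith,
      hs.2.lt_of_ne fun e => by rw [e] at h3; linarith⟩
  obtain ⟨a, b, hb, hu⟩ := h s h4 h3
  exact hu.not_min hb (hmin.isLocalMin (Icc_mem_nhds h4.1 h4.2))

/-- concavity in the support sense -/
theorem concaveOn_of_usup {s : Set ℝ} (hs : s.OrdConnected) (hc : ContinuousOn F s) {c : ℝ}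
    (h : ∀ t ∈ s, ∃ a b, b ≤ 2 * c ∧ USup F t a b) : ConcaveOn ℝ s fun t => F t - c * t ^ 2 := by
  refine LinearOrder.concaveOn_of_lt hs.convex fun x hx y hy hxy p q hp hq hpq => ?_
  have hsub : Icc x y ⊆ s := hs.out hx hy
  have ht : p * x + q * y ∈ Icc x y := by
    rw [show p = 1 - q by linarith]
    have : q < 1 := by linarith
    exact ⟨by nlinarith, by nlinarith⟩
  set l : ℝ := ((F y - c * y ^ 2) - (F x - c * x ^ 2)) / (y - x) with hl
  have hl2 : l * (y - x) = (F y - c * y ^ 2) - (F x - c * x ^ 2) :=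
    div_mul_cancel₀ _ (by linarith)
  have key : ∀ δ > (0 : ℝ), 0 ≤ F (p * x + q * y) + (-c * (p * x + q * y) ^ 2 -
      (F x - c * x ^ 2) - l * (p * x + q * y - x) +
        δ * ((p * x + q * y - x) * (y - (p * x + q * y)))) := by
    intro δ hδ
    refine nonneg_of_usup (F := fun t => F t + (-c * t ^ 2 - (F x - c * x ^ 2) - l * (t - x) +
      δ * ((t - x) * (y - t)))) ((hc.mono hsub).add (by fun_prop)) (le_of_eq (by ring)) (by
        simp only [sub_self, mul_zero, add_zero]; linarith) (fun t ht _ => ?_) ht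
    obtain ⟨a, b, hb, hu⟩ := h t (hsub (Ioo_subset_Icc_self ht))
    refine ⟨_, _, ?_, hu.add (y1 := fun t => -c * (2 * t) - l + δ * (x + y - 2 * t))
      (y2 := fun _ => -c * 2 + δ * (-2)) (fun t => ?_) fun t => ?_⟩
    · linarith
    · have h1 := hasDerivAt_id' t
      refine (((((h1.pow 2).const_mul (-c)).sub_const (F x - c * x ^ 2)).sub
        ((h1.sub_const x).const_mul l)).add
        (((h1.sub_const x).mul (h1.const_sub y)).const_mul δ)).congr_deriv ?_
      push_cast; ring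
    · have h1 := hasDerivAt_id' t
      refine ((((h1.const_mul 2).const_mul (-c)).sub_const l).add
        (((h1.const_mul 2).const_sub (x + y)).const_mul δ)).congr_deriv ?_
      simp
  have h0 : 0 ≤ F (p * x + q * y) + (-c * (p * x + q * y) ^ 2 - (F x - c * x ^ 2) -
      l * (p * x + q * y - x)) := by
    refine le_of_forall_pos_le_add fun ε hε => ?_
    have hw : 0 ≤ (p * x + q * y - x) * (y - (p * x + q * y)) :=
      mul_nonneg (by linarith [ht.1]) (by linarith [ht.2])
    set w := (p * x + q * y - x) * (y - (p * x + q * y))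
    have := key (ε / (w + 1)) (by positivity)
    have h2 : ε / (w + 1) * w ≤ ε := by
      rw [div_mul_eq_mul_div, div_le_iff₀ (by positivity)]; nlinarith
    linarith
  have e : p * x + q * y - x = q * (y - x) := by
    rw [show p = 1 - q by linarith]; ring
  simp only [smul_eq_mul]
  rw [e, ← mul_assoc, mul_comm l q, mul_assoc, hl2] at h0
  rw [show p = 1 - q by linarith] at h0 ⊢
  linarith

/-- comparison with the solutions of `y'' = k ^ 2 y` -/
theorem sinh_le_of_usup {t₁ t₂ k : ℝ} (hk : 0 < k) (hc : ContinuousOn F (Icc t₁ t₂))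
    (h : ∀ t ∈ Ioo t₁ t₂, ∃ a b, b ≤ k ^ 2 * F t ∧ USup F t a b) (ht : t ∈ Icc t₁ t₂) :
    Real.sinh (k * (t₂ - t)) * F t₁ + Real.sinh (k * (t - t₁)) * F t₂
      ≤ Real.sinh (k * (t₂ - t₁)) * F t := by
  rcases (ht.1.trans ht.2).eq_or_lt with e | hlt
  · subst e
    rw [le_antisymm ht.2 ht.1]; simp
  have hS : 0 < Real.sinh (k * (t₂ - t₁)) := Real.sinh_pos_iff.2 (mul_pos hk (by linarith))
  set S := Real.sinh (k * (t₂ - t₁)) with hSd
  set A := F t₁ / S
  set B := F t₂ / S
  have key := nonneg_of_usup (F := fun t => F t + (-A * Real.sinh (k * (t₂ - t)) -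
      B * Real.sinh (k * (t - t₁)))) (hc.add (by fun_prop))
    (by simp only [sub_self, mul_zero, Real.sinh_zero, sub_zero, A, ← hSd]; field_simp; simp)
    (by simp only [sub_self, mul_zero, Real.sinh_zero, zero_sub, B, ← hSd]; field_simp; simp)
    (fun t ht hneg => ?_) ht
  · have e1 : A * S = F t₁ := div_mul_cancel₀ _ hS.ne'
    have e2 : B * S = F t₂ := div_mul_cancel₀ _ hS.ne'
    have := mul_nonneg hS.le key
    rw [← e1, ← e2]; nlinarith
  obtain ⟨a, b, hb, hu⟩ := h t ht
  refine ⟨_, _, ?_, hu.add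
    (y1 := fun t => A * k * Real.cosh (k * (t₂ - t)) - B * k * Real.cosh (k * (t - t₁)))
    (y2 := fun t => k ^ 2 * (-A * Real.sinh (k * (t₂ - t)) - B * Real.sinh (k * (t - t₁))))
    (fun t => ?_) fun t => ?_⟩
  · have := mul_neg_of_pos_of_neg (pow_pos hk 2) hneg
    nlinarith
  · have h1 := hasDerivAt_id' t
    refine (((((h1.const_sub t₂).const_mul k).sinh).const_mul (-A)).sub
      ((((h1.sub_const t₁).const_mul k).sinh).const_mul B)).congr_deriv ?_
    ring
  · have h1 := hasDerivAt_id' t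
    refine (((((h1.const_sub t₂).const_mul k).cosh).const_mul (A * k)).sub
      ((((h1.sub_const t₁).const_mul k).cosh).const_mul (B * k))).congr_deriv ?_
    ring

/-- a lower bound to the right of `t` has a smaller derivative than the support function -/
theorem USup.deriv_le (h : USup F t a b) {u : ℝ → ℝ} {u' : ℝ} (hu : HasDerivAt u u' t)
    (e : u t = F t) (hle : ∀ᶠ s in 𝓝[>] t, u s ≤ F s) : u' ≤ a := by
  obtain ⟨φ, φ', e2, hle2, hd, rfl, -⟩ := h
  have h1 := hasDerivAt_iff_tendsto_slope.1 (hd.self_of_nhds.sub hu)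
  have h2 : Tendsto _ (𝓝[>] t) _ :=
    h1.mono_left (nhdsWithin_mono t fun s (hs : t < s) => hs.ne')
  have : 0 ≤ φ' t - u' := by
    refine ge_of_tendsto h2 ?_
    filter_upwards [hle, nhdsWithin_le_nhds hle2, self_mem_nhdsWithin] with s h3 h4 (h5 : t < s)
    rw [slope_def_field]
    refine div_nonneg ?_ (by linarith)
    simp only [Pi.sub_apply]; linarith
  linarith

theorem mul_cosh_le {x : ℝ} (hx : 0 ≤ x) : x * Real.cosh x ≤ (1 + x ^ 2) * Real.sinh x := by
  have hd : ∀ y, HasDerivAt (fun y => y * Real.sinh y - Real.cosh y) (y * Real.cosh y) y := by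
    intro y
    refine (((hasDerivAt_id' y).mul (Real.hasDerivAt_sinh y)).sub
      (Real.hasDerivAt_cosh y)).congr_deriv ?_
    ring
  have hm : MonotoneOn (fun y => y * Real.sinh y - Real.cosh y) (Ici 0) :=
    monotoneOn_of_deriv_nonneg (convex_Ici 0) (by fun_prop)
      (fun y _ => (hd y).differentiableAt.differentiableWithinAt) fun y hy => by
        rw [(hd y).deriv]
        exact mul_nonneg (interior_subset hy) (Real.cosh_pos y).le
  have h1 := hm (mem_Ici.2 le_rfl) hx hx
  simp only [Real.sinh_zero, mul_zero, Real.cosh_zero] at h1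
  have h2 := Real.self_le_sinh_iff.2 hx
  nlinarith [mul_le_mul_of_nonneg_left h1 hx]

end Vale.Agent.P216TP
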